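import Vale.Agent.P160.Peel

/-!
# P160: a kernel vector with support `S` fixed by the rows in `T`

A configuration `f : Sym2 (Fin n) → Bool` is a symmetric sign matrix. If a kernel vector with
support `S` is fixed by the rows in `T`, every other row is one more equation in fresh signs: the
row of `i ∉ S` in the columns of `S`, the row of `i ∈ S ∖ T` in the columns of `S ∖ T` from `i` on.
-/

namespace Vale.Agent.P160

open Finset

variable {n : ℕ}

/-- The product of row `i` of the matrix of `f` with `v`. -/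
def row (f : Sym2 (Fin n) → Bool) (v : Fin n → ℝ) (i : Fin n) : ℝ :=
  ∑ j, sgn (f s(i, j)) * v j

/-- A vector with support `S` killed by the rows in `T`. -/
def Fixes (S T : Finset (Fin n)) (f : Sym2 (Fin n) → Bool) (v : Fin n → ℝ) : Prop :=
  (∀ x, v x ≠ 0 ↔ x ∈ S) ∧ ∀ t ∈ T, row f v t = 0

/-- The vector read off from the exposed rows. -/
noncomputable def fixedVec (S T : Finset (Fin n)) (f : Sym2 (Fin n) → Bool) : Fin n → ℝ :=
  Classical.epsilon (Fixes S T f)

open scoped Classical in
/-- The configurations in which the exposed vector is killed by the rows in `I`. -/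
noncomputable def killed (S T I : Finset (Fin n)) : Finset (Sym2 (Fin n) → Bool) :=
  {f | (∃ v, Fixes S T f v) ∧ ∀ i ∈ I, row f (fixedVec S T f) i = 0}

/-- The fresh signs in row `i`. -/
def freshCols (S T : Finset (Fin n)) (i : Fin n) : Finset (Fin n) :=
  if i ∈ S then {w ∈ S \ T | i ≤ w} else S

theorem row_eq_sum {S : Finset (Fin n)} {v : Fin n → ℝ} (hv : ∀ x, v x ≠ 0 → x ∈ S)
    (f : Sym2 (Fin n) → Bool) (i : Fin n) : row f v i = ∑ j ∈ S, sgn (f s(i, j)) * v j :=
  (Finset.sum_subset (subset_univ S) fun j _ hj => by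
    rw [not_not.1 fun h => hj (hv j h), mul_zero]).symm

theorem Fixes.congr {S T : Finset (Fin n)} {f g : Sym2 (Fin n) → Bool} {v : Fin n → ℝ}
    (h : ∀ t ∈ T, ∀ x ∈ S, f s(t, x) = g s(t, x)) (hv : Fixes S T f v) : Fixes S T g v :=
  ⟨hv.1, fun t ht => by
    have := hv.2 t ht
    rw [row_eq_sum (fun x => (hv.1 x).1)] at this ⊢
    rw [← this]
    exact Finset.sum_congr rfl fun x hx => by rw [h t ht x hx]⟩

theorem fixes_iff {S T : Finset (Fin n)} {f g : Sym2 (Fin n) → Bool}
    (h : ∀ t ∈ T, ∀ x ∈ S, f s(t, x) = g s(t, x)) :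
    Fixes S T f = Fixes S T g :=
  funext fun _ => propext ⟨Fixes.congr h, Fixes.congr fun t ht x hx => (h t ht x hx).symm⟩

theorem freshCols_subset {S T : Finset (Fin n)} {i : Fin n} : freshCols S T i ⊆ S := by
  unfold freshCols
  split_ifs
  · exact (filter_subset _ _).trans sdiff_subset
  · exact le_rfl

/-- The exposed signs are not fresh. -/
theorem exposed_notMem {S T : Finset (Fin n)} {i t x : Fin n} (hi : i ∉ T) (ht : t ∈ T)
    (hx : x ∈ S) : s(t, x) ∉ (freshCols S T i).image fun w => s(i, w) := by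
  simp only [mem_image, not_exists, not_and]
  intro w hw h
  rcases Sym2.eq_iff.1 h with ⟨rfl, -⟩ | ⟨rfl, rfl⟩
  · exact hi ht
  · rw [freshCols, if_pos hx] at hw
    exact (mem_sdiff.1 (mem_filter.1 hw).1).2 ht

/-- The signs of an earlier row are not fresh. -/
theorem earlier_notMem {S T : Finset (Fin n)} {i i' x : Fin n} (hlt : i' < i) (hx : x ∈ S) :
    s(i', x) ∉ (freshCols S T i).image fun w => s(i, w) := by
  simp only [mem_image, not_exists, not_and]
  intro w hw h
  rcases Sym2.eq_iff.1 h with ⟨rfl, -⟩ | ⟨rfl, rfl⟩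
  · exact lt_irrefl _ hlt
  · rw [freshCols, if_pos hx] at hw
    exact absurd (mem_filter.1 hw).2 (not_le.2 hlt)

theorem killed_card_le (S T I : Finset (Fin n)) (hI : Disjoint I T) :
    (#(killed S T I) : ℝ) ≤
      (∏ i ∈ I, mid #(freshCols S T i)) * Fintype.card (Sym2 (Fin n) → Bool) := by
  classical
  induction I using Finset.induction_on_max with
  | empty =>
    rw [prod_empty, one_mul]
    exact_mod_cast card_le_univ _
  | insert i I hmax ih =>
    rw [disjoint_insert_left] at hI
    have hnot : i ∉ I := fun h => lt_irrefl i (hmax i h)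
    set W := freshCols S T i with hW
    set G := W.image fun w => s(i, w) with hG
    have hfix : ∀ f g, (∀ x, x ∉ G → f x = g x) → Fixes S T f = Fixes S T g := fun f g h =>
      fixes_iff fun t ht x hx => h _ (exposed_notMem hI.1 ht hx)
    have hvec : ∀ f g, (∀ x, x ∉ G → f x = g x) → fixedVec S T f = fixedVec S T g :=
      fun f g h => by rw [fixedVec, fixedVec, hfix f g h]
    have hsupp : ∀ f ∈ killed S T I, ∀ x, fixedVec S T f x ≠ 0 ↔ x ∈ S := fun f hf =>
      (Classical.epsilon_spec (mem_filter.1 hf).2.1).1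
    have hpeel : (#(killed S T (insert i I)) : ℝ) ≤ mid #W * #(killed S T I) := by
      refine peel W (fun w => s(i, w)) (fun w _ w' _ h => Sym2.congr_right.1 h) _ _ ?_ ?_
        (fun f => fixedVec S T f)
        (fun f => -∑ x ∈ S \ W, sgn (f s(i, x)) * fixedVec S T f x) ?_ ?_ ?_
      · intro f hf
        simp only [killed, mem_filter, mem_univ, true_and, forall_mem_insert] at hf ⊢
        exact ⟨hf.1, hf.2.2⟩
      · intro f g h hf
        have hs := hsupp f hf
        simp only [killed, mem_filter, mem_univ, true_and] at hf ⊢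
        refine ⟨by rw [← hfix f g h]; exact hf.1, fun j hj => ?_⟩
        have := hf.2 j hj
        rw [row_eq_sum (fun x => (hs x).1)] at this
        rw [← hvec f g h, row_eq_sum (fun x => (hs x).1), ← this]
        refine Finset.sum_congr rfl fun x hx => ?_
        rw [h _ (earlier_notMem (hmax j hj) hx)]
      · intro f g h
        refine ⟨hvec f g h, ?_⟩
        rw [hvec f g h]
        refine congrArg Neg.neg (Finset.sum_congr rfl fun x hx => ?_)
        rw [h _ ?_]
        simp only [mem_image, not_exists, not_and, hG]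
        exact fun w hw e => (mem_sdiff.1 hx).2 (Sym2.congr_right.1 e ▸ hw)
      · exact fun f hf w hw => (hsupp f hf w).2 (freshCols_subset hw)
      · intro f hf
        simp only [killed, mem_filter, mem_univ, true_and, forall_mem_insert] at hf
        have hs : ∀ x, fixedVec S T f x ≠ 0 ↔ x ∈ S := (Classical.epsilon_spec hf.1).1
        have := hf.2.1
        rw [row_eq_sum (fun x => (hs x).1), ← Finset.sum_sdiff freshCols_subset] at this
        linarith
    rw [prod_insert hnot, mul_assoc]
    exact hpeel.trans (mul_le_mul_of_nonneg_left (ih hI.2) (mid_nonneg _))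

/-- The kernel vectors with at most `K` nonzero entries. -/
def sparseEvent (n : ℕ) (K : ℝ) : Set (Sym2 (Fin n) → Bool) :=
  {f | ∃ v : Fin n → ℝ, v ≠ 0 ∧ ((#{x | v x ≠ 0} : ℕ) : ℝ) ≤ K ∧ ∀ i, row f v i = 0}

/-- A sparse kernel vector is fixed by `k - 1` rows, `k` the least size of a support. -/
theorem sparseEvent_subset {K : ℝ} {f : Sym2 (Fin n) → Bool} (hf : f ∈ sparseEvent n K) :
    ∃ k : ℕ, 1 ≤ k ∧ k ≤ n ∧ (k : ℝ) ≤ K ∧
      ∃ S ∈ powersetCard k univ, ∃ T ∈ powersetCard (k - 1) univ,
        f ∈ killed S T (univ \ T) := by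
  classical
  obtain ⟨v₀, hv₀, hK, hker₀⟩ := hf
  obtain ⟨v, ⟨hv, hker⟩, hmin⟩ := exists_minimalFor_of_wellFoundedLT
    (fun v : Fin n → ℝ => v ≠ 0 ∧ ∀ i, row f v i = 0) (fun v => #{x | v x ≠ 0})
    ⟨v₀, hv₀, hker₀⟩
  have hle : ∀ w : Fin n → ℝ, w ≠ 0 → (∀ i, row f w i = 0) →
      #{x | v x ≠ 0} ≤ #{x | w x ≠ 0} := fun w h1 h2 => by
    rcases le_total #{x | v x ≠ 0} #{x | w x ≠ 0} with h | h
    · exact h
    · exact hmin ⟨h1, h2⟩ h
  set S : Finset (Fin n) := {x | v x ≠ 0} with hS
  have hSne : S.Nonempty := by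
    obtain ⟨x, hx⟩ := Function.ne_iff.1 hv
    exact ⟨x, by simpa [hS] using hx⟩
  obtain ⟨x₀, hx₀⟩ := hSne
  have hx₀' : v x₀ ≠ 0 := by simpa [hS] using hx₀
  have hlin : ∀ (a : ℝ) (w : Fin n → ℝ) (i : Fin n),
      row f (fun x => w x - a * v x) i = row f w i := fun a w i => by
    have := hker i
    simp only [row, mul_sub, sum_sub_distrib, mul_left_comm _ a, ← mul_sum] at this ⊢
    rw [this, mul_zero, sub_zero]
  have hline : ∀ w : Fin n → ℝ, (∀ x, w x ≠ 0 → x ∈ S) → (∀ i, row f w i = 0) →
      w = fun x => w x₀ / v x₀ * v x := by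
    intro w hw hwk
    by_contra hne
    have hd : (fun x => w x - w x₀ / v x₀ * v x) ≠ 0 := fun h => hne (funext fun x => by
      have := congrFun h x
      simp only [Pi.zero_apply] at this
      linarith)
    have h1 := hle _ hd fun i => by rw [hlin, hwk]
    have h2 : ({x | w x - w x₀ / v x₀ * v x ≠ 0} : Finset (Fin n)) ⊂ S := by
      refine (Finset.ssubset_iff_of_subset fun x hx => ?_).2 ⟨x₀, hx₀, ?_⟩
      · simp only [mem_filter, mem_univ, true_and] at hx
        by_contra hxS
        have e1 : v x = 0 := by simpa [hS] using hxS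
        have e2 : w x = 0 := not_not.1 fun h => hxS (hw x h)
        simp [e1, e2] at hx
      · simp [hx₀']
    exact absurd h1 (not_le.2 (card_lt_card h2))
  -- a least set of rows fixing `v`
  let Good : Finset (Fin n) → Prop := fun T =>
    ∀ w : Fin n → ℝ, (∀ x, w x ≠ 0 → x ∈ S) → (∀ t ∈ T, row f w t = 0) →
      w = fun x => w x₀ / v x₀ * v x
  obtain ⟨T, hT, hTmin⟩ := exists_minimalFor_of_wellFoundedLT Good (fun T => #T)
    ⟨univ, fun w hw h => hline w hw fun i => h i (mem_univ i)⟩
  have hbad : ∀ t ∈ T, ∃ w : Fin n → ℝ, (∀ x, w x ≠ 0 → x ∈ S) ∧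
      (∀ t' ∈ T.erase t, row f w t' = 0) ∧ row f w t ≠ 0 := by
    intro t ht
    have hlt : #(T.erase t) < #T := card_erase_lt_of_mem ht
    have hng : ¬Good (T.erase t) := fun hg => absurd (hTmin hg hlt.le) (not_le.2 hlt)
    simp only [Good, not_forall] at hng
    obtain ⟨w, hw, hw', hne⟩ := hng
    refine ⟨w, hw, hw', fun h0 => hne (hT w hw fun t' ht' => ?_)⟩
    by_cases e : t' = t
    · rwa [e]
    · exact hw' t' (mem_erase.2 ⟨e, ht'⟩)
  choose! w hwS hw0 hwt using hbad
  set b : Option T → (S → ℝ) := fun o x => Option.elim o (v x) (fun t => w t x) with hb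
  have hindep : LinearIndependent ℝ b := by
    rw [Fintype.linearIndependent_iff]
    intro c hc
    have hpt : ∀ x ∈ S, c none * v x + ∑ t : T, c (some t) * w t x = 0 := fun x hx => by
      have := congrFun hc ⟨x, hx⟩
      simpa [hb, Fintype.sum_option] using this
    have hsome : ∀ t : T, c (some t) = 0 := by
      intro t
      have h1 : ∑ x ∈ S, sgn (f s((t : Fin n), x)) *
          (c none * v x + ∑ t' : T, c (some t') * w t' x) = 0 :=
        Finset.sum_eq_zero fun x hx => by rw [hpt x hx, mul_zero]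
      simp only [mul_add, mul_sum, sum_add_distrib] at h1
      rw [sum_comm] at h1
      have h2 : ∀ (a : ℝ) (u : Fin n → ℝ), (∀ x, u x ≠ 0 → x ∈ S) →
          ∑ x ∈ S, sgn (f s((t : Fin n), x)) * (a * u x) = a * row f u t := fun a u hu => by
        rw [row_eq_sum hu, mul_sum]
        exact Finset.sum_congr rfl fun x _ => by ring
      rw [h2 _ v (fun x hx => by simpa [hS] using hx), hker,
        Finset.sum_congr rfl fun t' _ => h2 (c (some t')) (w t') (hwS t' t'.2), mul_zero, zero_add,
        Finset.sum_eq_single t] at h1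
      · exact (mul_eq_zero.1 h1).resolve_right (hwt t t.2)
      · intro t' _ hne
        rw [hw0 t' t'.2 t (mem_erase.2 ⟨fun e => hne (Subtype.ext e.symm), t.2⟩), mul_zero]
      · exact fun h => absurd (mem_univ t) h
    intro o
    cases o with
    | none =>
      have := hpt x₀ hx₀
      simp only [hsome, zero_mul, sum_const_zero, add_zero, mul_eq_zero] at this
      exact this.resolve_right hx₀'
    | some t => exact hsome t
  have hTS : #T + 1 ≤ #S := by
    simpa using hindep.fintype_card_le_finrank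
  have hSn : #S ≤ n := by simpa using card_le_univ S
  obtain ⟨T', hTT', -, hT'⟩ := exists_subsuperset_card_eq (subset_univ T)
    (show #T ≤ #S - 1 by omega) (by simp; omega)
  have hex : ∃ u, Fixes S T' f u := ⟨v, fun x => by simp [hS], fun t _ => hker t⟩
  obtain ⟨hu, hu0⟩ := Classical.epsilon_spec hex
  have hmul := hT (fixedVec S T' f) (fun x => (hu x).1) fun t ht => hu0 t (hTT' ht)
  refine ⟨#S, by omega, hSn, le_trans ?_ hK, S, by simp, T', by simp [hT'], ?_⟩
  · exact_mod_cast hle v₀ hv₀ hker₀
  · simp only [killed, mem_filter, mem_univ, true_and]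
    refine ⟨hex, fun i _ => ?_⟩
    rw [hmul]
    simp only [row, mul_left_comm _ (fixedVec S T' f x₀ / v x₀), ← mul_sum]
    exact mul_eq_zero_of_right _ (hker i)

end Vale.Agent.P160
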