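import Mathlib

/-!
# P160: anti-concentration and exposing one row at a time

A signed sum of `m` nonzero reals takes each value with probability at most `mid m`. On a space of
sign configurations this bounds the cost of one more linear equation in fresh signs.
-/

namespace Vale.Agent.P160

open Finset

variable {κ ι : Type*}

/-- The sign of a Boolean. -/
def sgn (b : Bool) : ℝ := if b then 1 else -1

/-- The largest binomial probability `C(m, m/2) / 2^m`. -/
noncomputable def mid (m : ℕ) : ℝ := (m.choose (m / 2) : ℝ) / 2 ^ m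

theorem mid_nonneg (m : ℕ) : 0 ≤ mid m := by unfold mid; positivity

theorem choose_half_sq (m : ℕ) : m.choose (m / 2) ^ 2 * (m + 1) ≤ 4 ^ m := by
  have key : ∀ l : ℕ, l.centralBinom ^ 2 * (2 * l + 1) ≤ 16 ^ l := by
    intro l
    induction l with
    | zero => simp
    | succ l ih =>
      refine Nat.le_of_mul_le_mul_left ?_ (show 0 < (l + 1) ^ 2 by positivity)
      rw [← mul_assoc, ← mul_pow, Nat.succ_mul_centralBinom_succ, mul_pow]
      calc (2 * (2 * l + 1)) ^ 2 * l.centralBinom ^ 2 * (2 * (l + 1) + 1)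
          = 4 * ((2 * l + 1) * (2 * l + 3)) * (l.centralBinom ^ 2 * (2 * l + 1)) := by ring
        _ ≤ 4 * (4 * (l + 1) ^ 2) * 16 ^ l := Nat.mul_le_mul (by nlinarith) ih
        _ = _ := by ring
  rcases Nat.even_or_odd' m with ⟨l, rfl | rfl⟩
  · rw [Nat.mul_div_cancel_left l two_pos, pow_mul]
    exact key l
  · have h2 : (l + 1).centralBinom = 2 * (2 * l + 1).choose l := by
      rw [Nat.centralBinom, show 2 * (l + 1) = (2 * l + 1) + 1 by ring, Nat.choose_succ_succ',
        show (2 * l + 1).choose (l + 1) = (2 * l + 1).choose l from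
          Nat.choose_symm_of_eq_add (by ring)]
      ring
    have := key (l + 1)
    rw [h2] at this
    rw [show (2 * l + 1) / 2 = l by omega]
    have h4 : 16 ^ (l + 1) = 4 * 4 ^ (2 * l + 1) := by
      rw [show (16 : ℕ) = 4 ^ 2 by norm_num, ← pow_mul, ← pow_succ']; congr 1
    rw [h4] at this
    nlinarith

theorem mid_sq_le (m : ℕ) : mid m ^ 2 ≤ 1 / ((m : ℝ) + 1) := by
  rw [mid, div_pow, ← pow_mul, mul_comm, pow_mul, show (2 : ℝ) ^ 2 = 4 by norm_num,
    div_le_div_iff₀ (by positivity) (by positivity), one_mul]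
  exact_mod_cast choose_half_sq m

theorem mid_le_half {m : ℕ} (hm : 1 ≤ m) : mid m ≤ 1 / 2 := by
  by_cases h : 3 ≤ m
  · have h2 := mid_sq_le m
    have : (1 : ℝ) / ((m : ℝ) + 1) ≤ 1 / 4 :=
      div_le_div_of_nonneg_left one_pos.le (by norm_num)
        (by have : (3 : ℝ) ≤ m := by exact_mod_cast h
            linarith)
    nlinarith [mid_nonneg m]
  · interval_cases m <;> norm_num [mid, Nat.choose]

theorem mid_le_three_eighths {m : ℕ} (hm : 3 ≤ m) : mid m ≤ 3 / 8 := by
  by_cases h : 7 ≤ m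
  · have h2 := mid_sq_le m
    have : (1 : ℝ) / ((m : ℝ) + 1) ≤ 1 / 8 :=
      div_le_div_of_nonneg_left one_pos.le (by norm_num)
        (by have : (7 : ℝ) ≤ m := by exact_mod_cast h
            linarith)
    nlinarith [mid_nonneg m]
  · interval_cases m <;> norm_num [mid, Nat.choose]

variable [DecidableEq κ]

/-- Erdős's anti-concentration: signed sums of nonzero reals. -/
theorem card_signs_le (W : Finset κ) (a : κ → ℝ) (ha : ∀ w ∈ W, a w ≠ 0) (c : ℝ) :
    #{s ∈ W.powerset | ∑ w ∈ W, sgn (decide (w ∈ s)) * a w = c} ≤ (#W).choose (#W / 2) := by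
  set φ : Finset κ → Finset W := fun s => {w | ((w : κ) ∈ s ↔ 0 < a w)} with hφ
  set 𝒮 := ({s ∈ W.powerset | ∑ w ∈ W, sgn (decide (w ∈ s)) * a w = c}).image φ with h𝒮
  have hinj : Set.InjOn φ ↑({s ∈ W.powerset | ∑ w ∈ W, sgn (decide (w ∈ s)) * a w = c} :
      Finset (Finset κ)) := by
    intro s hs t ht h
    simp only [mem_coe, mem_filter, mem_powerset] at hs ht
    ext w
    by_cases hw : w ∈ W
    · have := Finset.ext_iff.1 h ⟨w, hw⟩
      simp only [hφ, mem_filter, mem_univ, true_and] at this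
      tauto
    · exact ⟨fun h' => absurd (hs.1 h') hw, fun h' => absurd (ht.1 h') hw⟩
  rw [← card_image_of_injOn hinj]
  have hval : ∀ u ∈ 𝒮, ∑ w : W, (if w ∈ u then |a w| else -|a w|) = c := by
    intro u hu
    obtain ⟨s, hs, rfl⟩ := mem_image.1 hu
    simp only [mem_filter, mem_powerset] at hs
    rw [← hs.2, ← Finset.sum_coe_sort W fun w => sgn (decide (w ∈ s)) * a w]
    refine Finset.sum_congr rfl fun w _ => ?_
    rcases lt_or_gt_of_ne (ha w w.2) with h | h
    · by_cases hw : (w : κ) ∈ s <;> simp [hφ, sgn, hw, h.not_gt, abs_of_neg h]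
    · by_cases hw : (w : κ) ∈ s <;> simp [hφ, sgn, hw, h, abs_of_pos h]
  have hanti : IsAntichain (· ⊆ ·) (𝒮 : Set (Finset W)) := by
    intro u hu t ht hne hsub
    obtain ⟨w₀, h1, h2⟩ := exists_of_ssubset (hsub.ssubset_of_ne hne)
    have hlt : ∑ w : W, (if w ∈ u then |a w| else -|a w|) <
        ∑ w : W, (if w ∈ t then |a w| else -|a w|) := by
      refine Finset.sum_lt_sum (fun w _ => ?_) ⟨w₀, mem_univ _, ?_⟩
      · by_cases hu' : w ∈ u
        · simp [hu', hsub hu']
        · rw [if_neg hu']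
          split_ifs
          · exact (neg_nonpos.2 (abs_nonneg _)).trans (abs_nonneg _)
          · exact le_rfl
      · simp only [h1, h2, if_true, if_false]
        have := abs_pos.2 (ha w₀ w₀.2)
        linarith
    exact absurd ((hval u hu).trans (hval t ht).symm) hlt.ne
  have := hanti.sperner
  rwa [Fintype.card_coe] at this

variable [Fintype ι] [DecidableEq ι]

/-- One more linear equation in fresh signs costs at most `mid`. -/
theorem peel (W : Finset κ) (ψ : κ → ι) (hψ : Set.InjOn ψ W) (Q Q' : Finset (ι → Bool))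
    (hsub : Q' ⊆ Q) (hQ : ∀ f g, (∀ x, x ∉ W.image ψ → f x = g x) → f ∈ Q → g ∈ Q)
    (a : (ι → Bool) → κ → ℝ) (c : (ι → Bool) → ℝ)
    (hac : ∀ f g, (∀ x, x ∉ W.image ψ → f x = g x) → a f = a g ∧ c f = c g)
    (hne : ∀ f ∈ Q, ∀ w ∈ W, a f w ≠ 0)
    (hQ' : ∀ f ∈ Q', ∑ w ∈ W, sgn (f (ψ w)) * a f w = c f) :
    (#Q' : ℝ) ≤ mid #W * #Q := by
  set G := W.image ψ with hG
  set r : (ι → Bool) → (ι → Bool) := fun f x => if x ∈ G then false else f x with hr
  have hQr : (Q : Set (ι → Bool)).MapsTo r (Q.image r) := fun f hf => mem_image_of_mem r hf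
  have hrr : ∀ f g, r f = r g ↔ ∀ x, x ∉ G → f x = g x := fun f g => by
    refine ⟨fun h x hx => by simpa [hr, hx] using congrFun h x, fun h => funext fun x => ?_⟩
    by_cases hx : x ∈ G <;> simp [hr, hx]
    exact h x hx
  have hfib : ∀ k ∈ Q.image r, 2 ^ #W ≤ #{f ∈ Q | r f = k} ∧
      #{f ∈ Q' | r f = k} ≤ (#W).choose (#W / 2) := by
    intro k hk
    obtain ⟨f₀, hf₀, rfl⟩ := mem_image.1 hk
    set back : Finset κ → (ι → Bool) := fun s x =>
      if x ∈ G then decide (∃ w ∈ s, ψ w = x) else f₀ x with hback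
    have hb : ∀ s ⊆ W, ∀ w ∈ W, back s (ψ w) = decide (w ∈ s) := fun s hs w hw => by
      simp only [hback, hG, if_pos (mem_image_of_mem ψ hw), decide_eq_decide]
      exact ⟨fun ⟨v, hv, e⟩ => hψ (hs hv) hw e ▸ hv, fun h => ⟨w, h, rfl⟩⟩
    constructor
    · rw [← card_powerset]
      refine card_le_card_of_injOn back (fun s _ => ?_) fun s hs t ht h => ?_
      · have e : ∀ x, x ∉ G → f₀ x = back s x := fun x hx => by simp [hback, hx]
        simp only [mem_coe, mem_filter]
        exact ⟨hQ f₀ _ e hf₀, ((hrr _ _).2 e).symm⟩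
      · simp only [mem_coe, mem_powerset] at hs ht
        ext w
        by_cases hw : w ∈ W
        · have := congrFun h (ψ w)
          rwa [hb s hs w hw, hb t ht w hw, decide_eq_decide] at this
        · exact ⟨fun h' => absurd (hs h') hw, fun h' => absurd (ht h') hw⟩
    · refine le_trans ?_ (card_signs_le W (a f₀) (hne f₀ hf₀) (c f₀))
      refine card_le_card_of_injOn (fun f => {w ∈ W | f (ψ w) = true}) (fun f hf => ?_)
        fun f hf g hg h => ?_
      · simp only [mem_coe, mem_filter] at hf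
        obtain ⟨ea, ec⟩ := hac f f₀ ((hrr _ _).1 hf.2)
        simp only [mem_coe, mem_filter, mem_powerset, filter_subset, true_and]
        rw [← ea, ← ec, ← hQ' f hf.1]
        refine Finset.sum_congr rfl fun w hw => ?_
        simp [hw]
      · simp only [mem_coe, mem_filter] at hf hg
        funext x
        by_cases hx : x ∈ G
        · obtain ⟨w, hw, rfl⟩ := mem_image.1 hx
          simpa [hw] using Finset.ext_iff.1 h w
        · exact ((hrr _ _).1 (hf.2.trans hg.2.symm)) x hx
  have h2 : #Q' * 2 ^ #W ≤ (#W).choose (#W / 2) * #Q := by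
    rw [card_eq_sum_card_fiberwise (hQr.mono_left (coe_subset.2 hsub)),
      card_eq_sum_card_fiberwise hQr, sum_mul, mul_sum]
    exact Finset.sum_le_sum fun k hk => Nat.mul_le_mul (hfib k hk).2 (hfib k hk).1
  rw [mid, div_mul_eq_mul_div, le_div_iff₀ (by positivity)]
  exact_mod_cast h2

end Vale.Agent.P160
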