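import Vale.Agent.P160.Exposure

/-!
# P160: kernel vectors with at most `n - 24 n / log n` nonzero entries

Summing the exposure bound over the support and the fixing rows: supports of size one and two give
`n ^ 3 / 2 ^ n`, and all larger ones are exponentially smaller.
-/

namespace Vale.Agent.P160

open Finset Filter

variable {n : ℕ}

theorem prod_mid_le {S T : Finset (Fin n)} {k D : ℕ} (hS : #S = k) (hT : #T = k - 1)
    (hk : 1 ≤ k) (hDk : D ≤ k) (hDn : D + k ≤ n + 2) {b : ℝ} (hb0 : 0 ≤ b) (hb : b ≤ 1 / 2)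
    (hmid : ∀ m, D ≤ m → mid m ≤ b) :
    ∏ i ∈ univ \ T, mid #(freshCols S T i) ≤
      (1 / 2) ^ (D - 1) * b ^ (n - k + 1 - (D - 1)) := by
  set I := univ \ T with hI
  set J : Finset (Fin n) := {i ∈ I | #(freshCols S T i) < D} with hJ
  have hpos : ∀ i ∈ I, 1 ≤ #(freshCols S T i) := by
    intro i hi
    unfold freshCols
    split_ifs with h
    · exact card_pos.2 ⟨i, mem_filter.2 ⟨mem_sdiff.2 ⟨h, (mem_sdiff.1 hi).2⟩, le_rfl⟩⟩
    · omega
  have hJS : ∀ i ∈ J, i ∈ S \ T := by
    intro i hi
    obtain ⟨hi, hlt⟩ := mem_filter.1 hi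
    refine mem_sdiff.2 ⟨?_, (mem_sdiff.1 hi).2⟩
    by_contra h
    rw [freshCols, if_neg h] at hlt
    omega
  have hcard : #J ≤ D - 1 := by
    have hlt : ∀ i ∈ J, ∀ j ∈ J, i < j → #(freshCols S T j) < #(freshCols S T i) := by
      intro i hi j hj hij
      have hi' := hJS i hi
      rw [freshCols, freshCols, if_pos (mem_sdiff.1 hi').1, if_pos (mem_sdiff.1 (hJS j hj)).1]
      refine card_lt_card ((ssubset_iff_of_subset fun w hw => ?_).2 ⟨i, ?_, ?_⟩)
      · simp only [mem_filter] at hw ⊢
        exact ⟨hw.1, hij.le.trans hw.2⟩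
      · exact mem_filter.2 ⟨hi', le_rfl⟩
      · exact fun h => absurd (mem_filter.1 h).2 (not_le.2 hij)
    calc #J ≤ #(Icc 1 (D - 1)) := by
          refine card_le_card_of_injOn (fun i => #(freshCols S T i)) (fun i hi => ?_)
            fun i hi j hj h => ?_
          · obtain ⟨hi, hlt⟩ := mem_filter.1 hi
            have := hpos i hi
            simp only [coe_Icc, Set.mem_Icc]
            omega
          · rcases lt_trichotomy i j with h' | h' | h'
            · exact absurd h (hlt i hi j hj h').ne'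
            · exact h'
            · exact absurd h (hlt j hj i hi h').ne
      _ = D - 1 := by simp
  have hIcard : #I = n - k + 1 := by
    rw [hI, ← compl_eq_univ_sdiff, card_compl, Fintype.card_fin, hT]
    have : k ≤ n := hS ▸ (card_le_univ S).trans_eq (Fintype.card_fin n)
    omega
  calc ∏ i ∈ I, mid #(freshCols S T i)
      = (∏ i ∈ I \ J, mid #(freshCols S T i)) * ∏ i ∈ J, mid #(freshCols S T i) :=
        (prod_sdiff (filter_subset _ _)).symm
    _ ≤ b ^ #(I \ J) * (1 / 2) ^ #J := by
        refine mul_le_mul ?_ ?_ (prod_nonneg fun i _ => mid_nonneg _) (pow_nonneg hb0 _)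
        · rw [← prod_const]
          refine prod_le_prod (fun i _ => mid_nonneg _) fun i hi => hmid _ ?_
          by_contra h
          exact (mem_sdiff.1 hi).2 (mem_filter.2 ⟨(mem_sdiff.1 hi).1, not_le.1 h⟩)
        · rw [← prod_const]
          exact prod_le_prod (fun i _ => mid_nonneg _)
            fun i hi => mid_le_half (hpos i (mem_filter.1 hi).1)
    _ = (1 / 2) ^ #J * b ^ (D - 1 - #J) * b ^ (n - k + 1 - (D - 1)) := by
        rw [card_sdiff_of_subset (s := J) (t := I) (filter_subset _ _), hIcard, mul_assoc,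
          ← pow_add, mul_comm]
        congr 2
        omega
    _ ≤ (1 / 2) ^ #J * (1 / 2) ^ (D - 1 - #J) * b ^ (n - k + 1 - (D - 1)) := by gcongr
    _ = _ := by rw [← pow_add, Nat.add_sub_cancel' hcard]

theorem choose_mul_pow_le (n k : ℕ) {x : ℝ} (hx : 0 ≤ x) :
    (n.choose k : ℝ) * x ^ k ≤ (1 + x) ^ n := by
  rcases le_or_gt k n with h | h
  · rw [add_comm 1 x, add_pow]
    refine le_trans (le_of_eq ?_) (single_le_sum (f := fun m => x ^ m * (1 : ℝ) ^ (n - m) *
      (n.choose m : ℝ)) (fun m _ => by positivity) (mem_range.2 (Nat.lt_succ_of_le h)))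
    simp [mul_comm]
  · rw [Nat.choose_eq_zero_of_lt h, Nat.cast_zero, zero_mul]
    positivity

/-- Supports of size `k`, weighted by the two binomial coefficients. -/
theorem level_le {k : ℕ} {β : ℝ}
    (hβ : ∀ S ∈ powersetCard k (univ : Finset (Fin n)), ∀ T ∈ powersetCard (k - 1) univ,
      ∏ i ∈ univ \ T, mid #(freshCols S T i) ≤ β) :
    (#((powersetCard k (univ : Finset (Fin n))).biUnion fun S =>
        (powersetCard (k - 1) (univ : Finset (Fin n))).biUnion fun T =>
          killed S T (univ \ T)) : ℝ) ≤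
      (n.choose k : ℝ) * n.choose (k - 1) * β * Fintype.card (Sym2 (Fin n) → Bool) := by
  calc _ ≤ ((∑ S ∈ powersetCard k (univ : Finset (Fin n)),
        ∑ T ∈ powersetCard (k - 1) (univ : Finset (Fin n)),
        #(killed S T (univ \ T)) : ℕ) : ℝ) := by
        exact_mod_cast card_biUnion_le.trans (Finset.sum_le_sum fun S _ => card_biUnion_le)
    _ ≤ ∑ S ∈ powersetCard k (univ : Finset (Fin n)),
          ∑ T ∈ powersetCard (k - 1) (univ : Finset (Fin n)),
            β * Fintype.card (Sym2 (Fin n) → Bool) := by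
        push_cast
        exact Finset.sum_le_sum fun S hS => Finset.sum_le_sum fun T hT =>
          (killed_card_le S T _ sdiff_disjoint).trans
            (mul_le_mul_of_nonneg_right (hβ S hS T hT) (Nat.cast_nonneg _))
    _ = _ := by simp [card_powersetCard]; ring

/-- The terms with `3 ≤ k` are exponentially smaller than `2 ^ (-n)`. -/
theorem level_large_le {k : ℕ} (hn : 4096 ≤ n) (hk3 : 3 ≤ k)
    (hk : (k : ℝ) ≤ n - 24 * n / Real.log n) (S T : Finset (Fin n)) (hS : #S = k)
    (hT : #T = k - 1) :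
    (n.choose k : ℝ) * n.choose (k - 1) * ∏ i ∈ univ \ T, mid #(freshCols S T i) ≤
      2 * (3 / 8 * (51 / 50) ^ 2 * (23 / 20)) ^ n := by
  have hn0 : (0 : ℝ) < n := by exact_mod_cast (show 0 < n by omega)
  have hlog : 0 < Real.log n := Real.log_pos (by exact_mod_cast (show 1 < n by omega))
  have hkn : k < n := by
    have : 0 < 24 * (n : ℝ) / Real.log n := by positivity
    exact_mod_cast (show (k : ℝ) < n by linarith)
  have hprod : 0 ≤ ∏ i ∈ univ \ T, mid #(freshCols S T i) := prod_nonneg fun i _ => mid_nonneg _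
  by_cases hsmall : 64 * k ≤ n
  · have hprodle : ∏ i ∈ univ \ T, mid #(freshCols S T i) ≤ 2 * (3 / 8) ^ n * (8 / 3) ^ k := by
      refine (prod_mid_le (D := 3) hS hT (by omega) hk3 (by omega) (by norm_num) (by norm_num)
        fun m hm => mid_le_three_eighths hm).trans ?_
      have hsplit : ((3 : ℝ) / 8) ^ n =
          (3 / 8) ^ (n - k + 1 - (3 - 1)) * (3 / 8) * (3 / 8) ^ k := by
        rw [← pow_succ, ← pow_add]
        congr 1
        omega
      rw [hsplit, mul_assoc 2, mul_assoc _ _ ((8 / 3 : ℝ) ^ k), ← mul_pow]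
      norm_num
      nlinarith [pow_nonneg (show (0 : ℝ) ≤ 3 / 8 by norm_num) (n - k + 1 - 2)]
    have hc : ∀ j, (n.choose j : ℝ) ≤ (51 / 50) ^ n * 50 ^ j := fun j => by
      have := choose_mul_pow_le n j (x := (1 : ℝ) / 50) (by norm_num)
      rw [div_pow, one_pow, mul_one_div, div_le_iff₀ (by positivity)] at this
      norm_num at this ⊢
      exact this
    calc _ ≤ ((51 / 50 : ℝ) ^ n * 50 ^ k) * ((51 / 50 : ℝ) ^ n * 50 ^ k) *
          (2 * (3 / 8) ^ n * (8 / 3) ^ k) := by
          refine mul_le_mul (mul_le_mul (hc k) ((hc (k - 1)).trans ?_) (by positivity)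
            (by positivity)) hprodle hprod (by positivity)
          gcongr <;> norm_num
      _ = 2 * (3 / 8 * (51 / 50) ^ 2) ^ n * (20000 / 3) ^ k := by
          rw [show (20000 / 3 : ℝ) = 50 * 50 * (8 / 3) by norm_num]
          simp only [mul_pow, ← pow_mul]
          ring
      _ ≤ 2 * (3 / 8 * (51 / 50) ^ 2) ^ n * (23 / 20) ^ n := by
          refine mul_le_mul_of_nonneg_left ?_ (by positivity)
          calc (20000 / 3 : ℝ) ^ k ≤ ((23 / 20) ^ 64) ^ k :=
                pow_le_pow_left₀ (by norm_num) (by norm_num) k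
            _ = (23 / 20) ^ (64 * k) := by rw [← pow_mul]
            _ ≤ (23 / 20) ^ n := pow_le_pow_right₀ (by norm_num) hsmall
      _ = _ := by rw [mul_assoc, ← mul_pow]
  · set b := Real.exp (-Real.log n / 4) with hb
    set D := Nat.sqrt n with hD
    have hb4 : b ^ 4 = 1 / (n : ℝ) := by
      rw [hb, ← Real.exp_nat_mul, Nat.cast_ofNat, mul_div_cancel₀ _ (by norm_num : (4 : ℝ) ≠ 0),
        Real.exp_neg, Real.exp_log hn0, one_div]
    have hD64 : 64 ≤ D := Nat.le_sqrt.2 (by omega)
    have hDD : D * D ≤ n := Nat.sqrt_le n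
    have hDk : D ≤ k := by nlinarith
    have hbhalf : b ≤ 1 / 2 := by
      refine (pow_le_pow_iff_left₀ (Real.exp_pos _).le (by norm_num) (n := 4) (by norm_num)).1 ?_
      rw [hb4, div_le_iff₀ hn0]
      have : (4096 : ℝ) ≤ n := by exact_mod_cast hn
      linarith
    have hmid : ∀ m, D ≤ m → mid m ≤ b := fun m hm => by
      refine (pow_le_pow_iff_left₀ (mid_nonneg m) (Real.exp_pos _).le (n := 4) (by norm_num)).1 ?_
      rw [hb4, show mid m ^ 4 = (mid m ^ 2) ^ 2 by ring]
      calc (mid m ^ 2) ^ 2 ≤ (1 / ((m : ℝ) + 1)) ^ 2 :=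
            pow_le_pow_left₀ (sq_nonneg _) (mid_sq_le m) 2
        _ ≤ 1 / (n : ℝ) := by
            rw [div_pow, one_pow]
            refine div_le_div_of_nonneg_left one_pos.le hn0 ?_
            have : n ≤ (m + 1) ^ 2 := by nlinarith [Nat.lt_succ_sqrt n]
            exact_mod_cast this
    -- many rows are left, and each costs `n ^ (-1/4)`
    have hgap : 24 * (n : ℝ) ≤ (n - k) * Real.log n := by
      have := mul_le_mul_of_nonneg_right hk hlog.le
      rw [sub_mul _ _ (Real.log n), div_mul_cancel₀ _ hlog.ne'] at this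
      linarith
    have hDlog : (D : ℝ) * Real.log n ≤ 2 * n := by
      have h1 := Real.log_le_sub_one_of_pos (Real.sqrt_pos.2 hn0)
      rw [Real.log_sqrt hn0.le] at h1
      have h2 : (D : ℝ) ≤ Real.sqrt n := Real.nat_sqrt_le_real_sqrt
      nlinarith [Real.mul_self_sqrt hn0.le, mul_le_mul_of_nonneg_right h2 hlog.le,
        Real.sqrt_nonneg (n : ℝ)]
    have hDkn : D + k ≤ n + 2 := by
      have : ((D : ℝ) + k) * Real.log n ≤ n * Real.log n := by nlinarith
      have : D + k ≤ n := by exact_mod_cast le_of_mul_le_mul_right this hlog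
      omega
    have hprodle : ∏ i ∈ univ \ T, mid #(freshCols S T i) ≤ (1 / 16) ^ n := by
      refine (prod_mid_le hS hT (by omega) hDk hDkn (Real.exp_pos _).le hbhalf hmid).trans ?_
      refine (mul_le_of_le_one_left (by positivity) (pow_le_one₀ (by norm_num)
        (by norm_num))).trans ?_
      calc b ^ (n - k + 1 - (D - 1)) ≤ Real.exp (-3) ^ n := by
            rw [hb, ← Real.exp_nat_mul, ← Real.exp_nat_mul, Real.exp_le_exp]
            have : n ≤ n - k + 1 - (D - 1) + k + D := by omega
            have : (n : ℝ) ≤ ((n - k + 1 - (D - 1) : ℕ) : ℝ) + k + D := by exact_mod_cast this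
            have := mul_le_mul_of_nonneg_right
              (show (n : ℝ) - k - D ≤ ((n - k + 1 - (D - 1) : ℕ) : ℝ) by linarith) hlog.le
            nlinarith
        _ ≤ _ := by
            refine pow_le_pow_left₀ (Real.exp_pos _).le ?_ n
            rw [Real.exp_neg, one_div]
            gcongr
            rw [show (3 : ℝ) = ((3 : ℕ) : ℝ) * 1 by norm_num, Real.exp_nat_mul]
            nlinarith [Real.exp_one_gt_d9, pow_le_pow_left₀ (by norm_num : (0 : ℝ) ≤ 2.7)
              (show (2.7 : ℝ) ≤ Real.exp 1 by linarith [Real.exp_one_gt_d9]) 3]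
    have hc : ∀ j, (n.choose j : ℝ) ≤ 2 ^ n := fun j => by
      simpa [one_add_one_eq_two] using choose_mul_pow_le n j (x := 1) zero_le_one
    calc _ ≤ (2 : ℝ) ^ n * 2 ^ n * (1 / 16) ^ n := by
          gcongr
          exacts [hc k, hc (k - 1)]
      _ = (1 / 4) ^ n := by rw [← mul_pow, ← mul_pow]; norm_num
      _ ≤ (3 / 8 * (51 / 50) ^ 2 * (23 / 20)) ^ n := pow_le_pow_left₀ (by norm_num) (by norm_num) n
      _ ≤ _ := le_mul_of_one_le_left (by positivity) (by norm_num)

/-- The kernel vectors with at most `n - 24 n / log n` nonzero entries, from above. -/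
theorem sparseEvent_le : ∀ᶠ n : ℕ in atTop,
    ((sparseEvent n (n - 24 * n / Real.log n)).ncard : ℝ) ≤
      (n : ℝ) ^ 3 * (1 / 2) ^ n * Fintype.card (Sym2 (Fin n) → Bool) := by
  set r : ℝ := 3 / 8 * (51 / 50) ^ 2 * (23 / 20) with hr
  have htail := (tendsto_self_mul_const_pow_of_lt_one (by norm_num [hr] : (0 : ℝ) ≤ 2 * r)
    (by norm_num [hr] : 2 * r < 1)).eventually (Iic_mem_nhds (by norm_num : (0 : ℝ) < 1 / 2))
  filter_upwards [htail, eventually_ge_atTop 4096] with n htail hn
  classical
  set M : ℝ := ((Fintype.card (Sym2 (Fin n) → Bool) : ℕ) : ℝ) with hM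
  set K : Finset ℕ := {k ∈ Icc 1 n | (k : ℝ) ≤ n - 24 * n / Real.log n} with hK
  set U : ℕ → Finset (Sym2 (Fin n) → Bool) := fun k => (powersetCard k univ).biUnion fun S =>
    (powersetCard (k - 1) univ).biUnion fun T => killed S T (univ \ T) with hU
  have hcard : (sparseEvent n (n - 24 * n / Real.log n)).ncard ≤ ∑ k ∈ K, #(U k) := by
    refine le_trans ?_ card_biUnion_le
    rw [← Set.ncard_coe_finset]
    refine Set.ncard_le_ncard (fun f hf => ?_) (Finset.finite_toSet _)
    obtain ⟨k, h1, h2, h3, S, hS, T, hT, hf⟩ := sparseEvent_subset hf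
    simp only [mem_coe, mem_biUnion, hU]
    exact ⟨k, mem_filter.2 ⟨mem_Icc.2 ⟨h1, h2⟩, h3⟩, S, hS, T, hT, hf⟩
  set u : ℕ → ℝ := fun k =>
    if k = 1 then n * (1 / 2) ^ n else if k = 2 then ((n : ℝ) ^ 3 - n ^ 2) * (1 / 2) ^ n
    else 2 * r ^ n with hu
  have hlev : ∀ k ∈ K, (#(U k) : ℝ) ≤ u k * M := by
    intro k hk
    obtain ⟨hk, hkK⟩ := mem_filter.1 hk
    obtain ⟨hk1, hk2⟩ := mem_Icc.1 hk
    rcases Nat.lt_or_ge k 3 with hlt | hge
    · have h := level_le (n := n) (k := k) (β := (1 / 2) ^ (n - k + 1)) fun S hS T hT => by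
        simpa using prod_mid_le (D := 1) (mem_powersetCard_univ.1 hS) (mem_powersetCard_univ.1 hT)
          hk1 hk1 (by omega) (by norm_num : (0 : ℝ) ≤ 1 / 2) le_rfl fun m hm => mid_le_half hm
      refine h.trans_eq ?_
      congr 1
      interval_cases k
      · simp only [hu, if_true, show n - 1 + 1 = n by omega]
        simp
      · have : ((1 : ℝ) / 2) ^ n = (1 / 2) ^ (n - 2 + 1) * (1 / 2) := by
          rw [← pow_succ]
          congr 1
          omega
        simp only [hu, OfNat.ofNat_ne_one, if_false, if_true, this, Nat.cast_choose_two,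
          Nat.choose_one_right, show 2 - 1 = 1 from rfl]
        ring
    · have hpos : (0 : ℝ) < (n.choose k : ℝ) * n.choose (k - 1) :=
        mul_pos (by exact_mod_cast Nat.choose_pos hk2)
          (by exact_mod_cast Nat.choose_pos (show k - 1 ≤ n by omega))
      have h := level_le (n := n) (k := k)
        (β := 2 * r ^ n / ((n.choose k : ℝ) * n.choose (k - 1))) fun S hS T hT => by
          rw [le_div_iff₀' hpos]
          exact level_large_le hn hge hkK S T (mem_powersetCard_univ.1 hS)
            (mem_powersetCard_univ.1 hT)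
      rw [mul_div_cancel₀ _ hpos.ne'] at h
      simp only [hu, if_neg (show ¬k = 1 by omega), if_neg (show ¬k = 2 by omega)]
      exact h
  have hu0 : ∀ k, 0 ≤ u k := fun k => by
    have : (n : ℝ) ^ 2 ≤ (n : ℝ) ^ 3 :=
      pow_le_pow_right₀ (by exact_mod_cast (show 1 ≤ n by omega)) (by norm_num)
    simp only [hu]
    split_ifs
    · positivity
    · exact mul_nonneg (sub_nonneg.2 this) (by positivity)
    · positivity
  calc ((sparseEvent n (n - 24 * n / Real.log n)).ncard : ℝ) ≤ ∑ k ∈ K, (#(U k) : ℝ) := by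
        exact_mod_cast hcard
    _ ≤ (∑ k ∈ Icc 1 n, u k) * M := by
        rw [sum_mul]
        exact (Finset.sum_le_sum hlev).trans (sum_le_sum_of_subset_of_nonneg (filter_subset _ _)
          fun k _ _ => mul_nonneg (hu0 k) (Nat.cast_nonneg _))
    _ ≤ (n : ℝ) ^ 3 * (1 / 2) ^ n * M := by
        gcongr
        have e : Icc 1 n = insert 1 (insert 2 (Icc 3 n)) := by
          ext k
          simp only [mem_insert, mem_Icc]
          omega
        rw [e, sum_insert (by simp), sum_insert (by simp)]
        have h3 : ∑ k ∈ Icc 3 n, u k ≤ n * (2 * r ^ n) := by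
          refine (Finset.sum_le_card_nsmul _ _ (2 * r ^ n) fun k hk => ?_).trans ?_
          · obtain ⟨hk, -⟩ := mem_Icc.1 hk
            simp only [hu, if_neg (show ¬k = 1 by omega), if_neg (show ¬k = 2 by omega), le_refl]
          · rw [nsmul_eq_mul, Nat.card_Icc]
            gcongr
            · exact_mod_cast (show n + 1 - 3 ≤ n by omega)
        have h4 : (n : ℝ) * (2 * r ^ n) ≤ (1 / 2) ^ n := by
          have : (n : ℝ) * (2 * r) ^ n ≤ 1 / 2 := htail
          calc (n : ℝ) * (2 * r ^ n) = 2 * (n * (2 * r) ^ n) * (1 / 2) ^ n := by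
                rw [mul_pow 2 r n, div_pow (1 : ℝ) 2 n, one_pow]
                field_simp
            _ ≤ 2 * (1 / 2) * (1 / 2) ^ n :=
                mul_le_mul_of_nonneg_right (mul_le_mul_of_nonneg_left this zero_le_two)
                  (by positivity)
            _ = _ := by rw [show (2 : ℝ) * (1 / 2) = 1 by norm_num, one_mul]
        simp only [hu, OfNat.ofNat_ne_one, if_false, if_true] at h3 ⊢
        have h5 : (0 : ℝ) ≤ ((n : ℝ) ^ 2 - n - 1) * (1 / 2) ^ n := by
          have : (4096 : ℝ) ≤ n := by exact_mod_cast hn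
          exact mul_nonneg (by nlinarith) (by positivity)
        nlinarith

/-- Two equal columns. -/
theorem sparseEvent_ge : ∀ᶠ n : ℕ in atTop,
    (Fintype.card (Sym2 (Fin n) → Bool) : ℝ) * (1 / 2) ^ n ≤
      ((sparseEvent n (n - 24 * n / Real.log n)).ncard : ℝ) := by
  filter_upwards [(Real.tendsto_log_atTop.comp tendsto_natCast_atTop_atTop).eventually_ge_atTop 48,
    eventually_ge_atTop 4] with n hlog hn
  classical
  have hK : (2 : ℝ) ≤ n - 24 * n / Real.log n := by
    have hn' : (4 : ℝ) ≤ n := by exact_mod_cast hn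
    have : 24 * (n : ℝ) / Real.log n ≤ n / 2 := by
      rw [div_le_iff₀ (by simp only [Function.comp] at hlog; linarith)]
      simp only [Function.comp] at hlog
      nlinarith
    linarith
  set z : Fin n := ⟨0, by omega⟩ with hz
  set o : Fin n := ⟨1, by omega⟩ with ho
  have hzo : z ≠ o := by simp [hz, ho]
  set p : Fin n → Fin n := fun i => if i = o then z else i with hp
  set E : Set (Sym2 (Fin n) → Bool) := {f | ∀ i, f s(i, z) = f s(i, o)} with hE
  have hEsub : E ⊆ sparseEvent n (n - 24 * n / Real.log n) := by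
    intro f hf
    refine ⟨Pi.single z 1 - Pi.single o 1, fun h => ?_, le_trans ?_ hK, fun i => ?_⟩
    · have := congrFun h z
      simp [hzo] at this
    · have hsub : ({x | (Pi.single z 1 - Pi.single o 1 : Fin n → ℝ) x ≠ 0} : Finset (Fin n)) ⊆
          {z, o} := by
        intro x hx
        simp only [mem_filter, mem_univ, true_and] at hx
        simp only [mem_insert, mem_singleton]
        by_contra h
        push Not at h
        simp [h.1, h.2] at hx
      exact_mod_cast (card_le_card hsub).trans card_le_two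
    · simp [row, mul_sub, sum_sub_distrib, Pi.single_apply, hf i]
  have hcount : Fintype.card (Sym2 (Fin n) → Bool) ≤ E.ncard * 2 ^ n := by
    have hmap : ∀ f : Sym2 (Fin n) → Bool, (fun x => f (x.map p)) ∈ E := fun f i => by
      simp [hp, hzo]
    let Φ : (Sym2 (Fin n) → Bool) → E × (Fin n → Bool) := fun f =>
      (⟨_, hmap f⟩, fun i => f s(i, o))
    have hΦ : Function.Injective Φ := fun f g h => by
      simp only [Φ, Prod.mk.injEq, Subtype.mk.injEq] at h
      funext x
      induction x using Sym2.ind with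
      | _ a b =>
        by_cases ha : a = o
        · rw [ha, Sym2.eq_swap]
          exact congrFun h.2 b
        by_cases hb : b = o
        · rw [hb]
          exact congrFun h.2 a
        simpa [hp, ha, hb] using congrFun h.1 s(a, b)
    have := Fintype.card_le_of_injective Φ hΦ
    rwa [Fintype.card_prod, Fintype.card_fun (α := Fin n), Fintype.card_bool, Fintype.card_fin,
      ← Nat.card_eq_fintype_card (α := E), Nat.card_coe_set_eq] at this
  calc (Fintype.card (Sym2 (Fin n) → Bool) : ℝ) * (1 / 2) ^ n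
      ≤ (E.ncard * 2 ^ n : ℕ) * (1 / 2) ^ n := by gcongr
    _ = (E.ncard : ℝ) := by
        push_cast
        rw [mul_assoc, ← mul_pow, show (2 : ℝ) * (1 / 2) = 1 by norm_num, one_pow, mul_one]
    _ ≤ _ := by exact_mod_cast Set.ncard_le_ncard hEsub

end Vale.Agent.P160
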